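import Vale.Agent.P269.G2.CSpec
import Vale.Agent.P269.G2.H861.Cas
import Vale.Agent.P269.G1.H660.Loop0

/-!
# [J1i] The Casimir element of the full small phase space
-/

set_option autoImplicit false

namespace Vale.Agent.P269.G2.H660

open Vale.Agent.P269.CI
open Vale.Agent.P269.G1 (Frob)
open Vale.Agent.P269.G2.H521 (be QQ S sum_be be_apply mul_be)
open Vale.Agent.P269.G2.H861 (IsCas)

variable {X : CompleteIntersection} {F : ℕ → ℕ → List (Ins X) → ℂ}

variable (hF : IsGW X F) (he : Even X.dim)

/-- the coefficients of the inverse pairing -/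
noncomputable def et (X : CompleteIntersection) (a b : Ix X) : RM X := cb (nx X) (pairingInv X a b)

theorem et_symm (he : Even X.dim) (a b : Ix X) : et X a b = et X b a := by
  unfold et
  rw [H598.pairingInv_symm' X he]

theorem cb_smul (c : ℂ) (f : RM X) : cb (nx X) c * f = c • f := by
  unfold cb
  rw [← MvPowerSeries.smul_eq_C_mul]
  ext γ : 1
  change PowerSeries.C c * MvPowerSeries.coeff γ f = c • MvPowerSeries.coeff γ f
  rw [← PowerSeries.smul_eq_C_mul]

/-- the dual basis -/
noncomputable def bd (a : Ix X) : AM hF he := ∑ b, et X a b • be hF he b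

theorem cas_eq : cas hF he = ∑ a, be hF he a * bd hF he a := by
  unfold cas bd
  refine Finset.sum_congr rfl fun a _ => ?_
  rw [Finset.mul_sum]
  refine Finset.sum_congr rfl fun b _ => ?_
  rw [mul_smul_comm]
  rfl

/-- bilinear forms on the Casimir element -/
theorem B_cas (B : AM hF he →ₗ[RM X] AM hF he →ₗ[RM X] RM X) :
    ∑ a, B (be hF he a) (bd hF he a) =
      ∑ a, ∑ b, et X a b * B (be hF he a) (be hF he b) := by
  refine Finset.sum_congr rfl fun a _ => ?_
  unfold bd
  rw [map_sum]
  refine Finset.sum_congr rfl fun b _ => ?_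
  rw [map_smul, smul_eq_mul]

theorem mul_comp (z : AM hF he) (a c : Ix X) :
    (z * be hF he a : AM hF he) c = ∑ j, z j * QQ F [(j, 0), (a, 0)] c := by
  conv_lhs => rw [← sum_be hF he z, Finset.sum_mul]
  have h1 : (∑ j, (z j • be hF he j) * be hF he a : AM hF he) c =
      ∑ j, ((z j • be hF he j) * be hF he a : AM hF he) c :=
    Finset.sum_apply (M := fun _ : Ix X => RM X) c Finset.univ
      (fun j => ((z j • be hF he j) * be hF he a : AM hF he))
  rw [h1]
  refine Finset.sum_congr rfl fun j _ => ?_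
  rw [smul_mul_assoc]
  change z j * (be hF he j * be hF he a : AM hF he) c = _
  rw [mul_be]

/-- the multiplication is self-adjoint -/
theorem inv_one (z : AM hF he) (b c : Ix X) :
    ∑ a, et X a b * (z * be hF he a : AM hF he) c =
      ∑ a, et X c a * (z * be hF he a : AM hF he) b := by
  have e1 : ∀ (b c : Ix X), ∑ a, et X a b * (z * be hF he a : AM hF he) c =
      ∑ j, z j * ∑ a, ∑ l, (pairingInv X a b * pairingInv X l c) •
        S F 0 [(j, 0), (a, 0), (l, 0)] := by
    intro b c
    simp only [mul_comp, Finset.mul_sum]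
    rw [Finset.sum_comm]
    refine Finset.sum_congr rfl fun j _ => Finset.sum_congr rfl fun a _ => ?_
    unfold QQ
    rw [Finset.mul_sum, Finset.mul_sum]
    refine Finset.sum_congr rfl fun l _ => ?_
    change et X a b * (z j * (pairingInv X l c • S F 0 [(j, 0), (a, 0), (l, 0)])) = _
    rw [mul_smul_comm, mul_smul_comm, mul_smul_comm, mul_smul, mul_comm (et X a b), mul_assoc,
      mul_comm (S F 0 _)]
    unfold et
    rw [cb_smul, mul_smul_comm, smul_comm]
  have e2 : ∀ (b c : Ix X), ∑ a, et X c a * (z * be hF he a : AM hF he) b =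
      ∑ a, et X a c * (z * be hF he a : AM hF he) b := fun b c =>
    Finset.sum_congr rfl fun a _ => by rw [et_symm he]
  rw [e2, e1, e1]
  refine Finset.sum_congr rfl fun j _ => congrArg _ ?_
  rw [Finset.sum_comm]
  refine Finset.sum_congr rfl fun l _ => Finset.sum_congr rfl fun a _ => ?_
  rw [mul_comm (pairingInv X a b),
    H521.S_perm hF he 0 (List.Perm.cons _ (List.Perm.swap (l, 0) (a, 0) []))]

theorem cas_move (B : AM hF he →ₗ[RM X] AM hF he →ₗ[RM X] RM X) (z : AM hF he) :
    ∑ a, B (z * be hF he a) (bd hF he a) = ∑ a, B (be hF he a) (z * bd hF he a) := by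
  have e1 : ∀ a, B (z * be hF he a) (bd hF he a) = ∑ b, ∑ c, et X a b *
      (z * be hF he a : AM hF he) c * B (be hF he c) (be hF he b) := by
    intro a
    unfold bd
    rw [map_sum]
    refine Finset.sum_congr rfl fun b _ => ?_
    rw [map_smul, smul_eq_mul]
    conv_lhs => rw [← sum_be hF he (z * be hF he a), map_sum, LinearMap.sum_apply, Finset.mul_sum]
    refine Finset.sum_congr rfl fun c _ => ?_
    rw [map_smul, LinearMap.smul_apply, smul_eq_mul]
    ring
  have e2 : ∀ a, B (be hF he a) (z * bd hF he a) = ∑ b, ∑ c, et X a b *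
      (z * be hF he b : AM hF he) c * B (be hF he a) (be hF he c) := by
    intro a
    unfold bd
    rw [Finset.mul_sum, map_sum]
    refine Finset.sum_congr rfl fun b _ => ?_
    rw [mul_smul_comm, map_smul, smul_eq_mul]
    conv_lhs => rw [← sum_be hF he (z * be hF he b), map_sum, Finset.mul_sum]
    refine Finset.sum_congr rfl fun c _ => ?_
    rw [map_smul, smul_eq_mul]
    ring
  simp only [e1, e2]
  have e3 : ∑ a, ∑ b, ∑ c, et X a b * (z * be hF he a : AM hF he) c *
      B (be hF he c) (be hF he b) = ∑ c, ∑ b, (∑ a, et X a b * (z * be hF he a : AM hF he) c) *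
        B (be hF he c) (be hF he b) := by
    simp only [Finset.sum_mul]
    rw [Finset.sum_comm]
    conv_lhs => enter [2, b]; rw [Finset.sum_comm]
    rw [Finset.sum_comm]
  have e4 : ∑ a, ∑ b, ∑ c, et X a b * (z * be hF he b : AM hF he) c *
      B (be hF he a) (be hF he c) = ∑ c, ∑ b, (∑ a, et X c a * (z * be hF he a : AM hF he) b) *
        B (be hF he c) (be hF he b) := by
    simp only [Finset.sum_mul]
    refine Finset.sum_congr rfl fun c _ => ?_
    rw [Finset.sum_comm]
  rw [e3, e4]
  refine Finset.sum_congr rfl fun c _ => Finset.sum_congr rfl fun b _ => ?_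
  rw [inv_one]

theorem cas_symm (B : AM hF he →ₗ[RM X] AM hF he →ₗ[RM X] RM X) :
    ∑ a, B (be hF he a) (bd hF he a) = ∑ a, B (bd hF he a) (be hF he a) := by
  have e1 : ∑ a, B (bd hF he a) (be hF he a) =
      ∑ a, B.flip (be hF he a) (bd hF he a) := rfl
  rw [e1, B_cas, B_cas, Finset.sum_comm]
  refine Finset.sum_congr rfl fun b _ => Finset.sum_congr rfl fun a _ => ?_
  rw [LinearMap.flip_apply, et_symm he]

theorem M_be (a : Ix X) : G1.H920.M (frob hF he) (be hF he a) =
    cb (nx X) (mu X a) • be hF he a := by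
  funext k
  change ((hp X k : ℕ) : RM X) * be hF he a k -
    algebraMap ℚ (RM X) ((X.dim : ℚ) / 2) * be hF he a k = cb (nx X) (mu X a) * be hF he a k
  rw [be_apply]
  split_ifs with h
  · subst h
    have e1 : ((hp X k : ℕ) : RM X) = cb (nx X) (hp X k : ℂ) := by
      unfold cb
      rw [map_natCast, map_natCast]
    have e2 : algebraMap ℚ (RM X) ((X.dim : ℚ) / 2) = cb (nx X) ((X.dim : ℂ) / 2) := by
      have e3 : algebraMap ℚ (RM X) ((X.dim : ℚ) / 2) =
          cb (nx X) (algebraMap ℚ ℂ ((X.dim : ℚ) / 2)) := by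
        unfold cb
        rw [← RingHom.comp_apply, ← RingHom.comp_apply]
        exact congrFun (congrArg DFunLike.coe (RingHom.ext_rat _ _)) _
      rw [e3]
      push_cast
      rfl
    rw [e1, e2]
    unfold mu cb
    rw [map_sub, map_sub]
    ring
  · rw [mul_zero, mul_zero, mul_zero, sub_zero]

/-- `M` as a linear map -/
noncomputable def ML : AM hF he →ₗ[RM X] AM hF he :=
  (frob hF he).d - (algebraMap ℚ (RM X) (frob hF he).rho) • LinearMap.id

theorem ML_apply (x : AM hF he) : ML hF he x = G1.H920.M (frob hF he) x := rfl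

theorem cas_skew (B : AM hF he →ₗ[RM X] AM hF he →ₗ[RM X] RM X) :
    ∑ a, B (G1.H920.M (frob hF he) (be hF he a)) (bd hF he a) =
      - ∑ a, B (be hF he a) (G1.H920.M (frob hF he) (bd hF he a)) := by
  have e1 : ∑ a, B (G1.H920.M (frob hF he) (be hF he a)) (bd hF he a) =
      ∑ a, (B ∘ₗ ML hF he) (be hF he a) (bd hF he a) := rfl
  have e2 : ∑ a, B (be hF he a) (G1.H920.M (frob hF he) (bd hF he a)) =
      ∑ a, (B.compl₂ (ML hF he)) (be hF he a) (bd hF he a) := rfl
  rw [e1, e2, B_cas, B_cas, ← Finset.sum_neg_distrib]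
  refine Finset.sum_congr rfl fun a _ => ?_
  rw [← Finset.sum_neg_distrib]
  refine Finset.sum_congr rfl fun b _ => ?_
  rw [LinearMap.comp_apply, LinearMap.compl₂_apply, ML_apply, ML_apply, M_be, M_be, map_smul,
    map_smul, LinearMap.smul_apply, smul_eq_mul, smul_eq_mul]
  by_cases h : pairingInv X a b = 0
  · unfold et
    rw [h]
    unfold cb
    rw [map_zero, map_zero]
    ring
  · have h2 := G1.H660.Lp.pairingInv_mu X h
    have h3 : cb (nx X) (mu X a) = - cb (nx X) (mu X b) := by
      rw [eq_neg_iff_add_eq_zero]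
      unfold cb
      rw [← map_add, ← map_add, h2, map_zero, map_zero]
    rw [h3]
    ring

/-- the component of a vector -/
noncomputable def pr (y : Ix X) : AM hF he →ₗ[RM X] RM X where
  toFun x := x y
  map_add' _ _ := rfl
  map_smul' _ _ := rfl

theorem mid_vec (x : AM hF he) (f : AM hF he →ₗ[RM X] RM X) :
    ∑ a, f (be hF he a * G1.H920.M (frob hF he) (bd hF he a * x)) = 0 := by
  -- `(u, v) ↦ f (u * M v)`
  set B1 : AM hF he →ₗ[RM X] AM hF he →ₗ[RM X] RM X :=
    ((LinearMap.mul (RM X) (AM hF he)).compr₂ f).compl₂ (ML hF he) with hB1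
  have e1 : ∀ u v, B1 u v = f (u * ML hF he v) := fun u v => rfl
  set B2 : AM hF he →ₗ[RM X] AM hF he →ₗ[RM X] RM X :=
    (LinearMap.mul (RM X) (AM hF he)).compr₂ (f ∘ₗ LinearMap.mul (RM X) (AM hF he) x) with hB2
  have e2 : ∀ u v, B2 u v = f (x * (u * v)) := fun u v => rfl
  have h1 := cas_move hF he B1 x
  have h2 := cas_skew hF he B2
  have h3 := cas_symm hF he (B2 ∘ₗ ML hF he)
  have h4 : ∑ a, f (be hF he a * G1.H920.M (frob hF he) (bd hF he a * x)) =
      ∑ a, B1 (be hF he a) (x * bd hF he a) := by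
    refine Finset.sum_congr rfl fun a _ => ?_
    rw [e1, mul_comm x]
    rfl
  have h5 : ∑ a, B1 (x * be hF he a) (bd hF he a) =
      ∑ a, B2 (be hF he a) (G1.H920.M (frob hF he) (bd hF he a)) := by
    refine Finset.sum_congr rfl fun a _ => ?_
    rw [e1, e2, mul_assoc]
    rfl
  have h6 : ∑ a, (B2 ∘ₗ ML hF he) (be hF he a) (bd hF he a) =
      ∑ a, B2 (G1.H920.M (frob hF he) (be hF he a)) (bd hF he a) := rfl
  have h7 : ∑ a, (B2 ∘ₗ ML hF he) (bd hF he a) (be hF he a) =
      ∑ a, B2 (be hF he a) (G1.H920.M (frob hF he) (bd hF he a)) := by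
    refine Finset.sum_congr rfl fun a _ => ?_
    rw [LinearMap.comp_apply, e2, e2, mul_comm (ML hF he (bd hF he a))]
    rfl
  rw [h6, h7] at h3
  rw [h3] at h2
  rw [h4, ← h1, h5]
  have h8 : (2 : RM X) * ∑ a, B2 (be hF he a) (G1.H920.M (frob hF he) (bd hF he a)) = 0 := by
    linear_combination h2
  have h9 : (algebraMap ℚ (RM X) (1 / 2)) * ((2 : RM X) *
      ∑ a, B2 (be hF he a) (G1.H920.M (frob hF he) (bd hF he a))) = 0 := by
    rw [h8, mul_zero]
  rw [← mul_assoc] at h9
  have h10 : (algebraMap ℚ (RM X) (1 / 2)) * (2 : RM X) = 1 := by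
    have : (2 : RM X) = algebraMap ℚ (RM X) 2 := by rw [map_ofNat]
    rw [this, ← map_mul]
    norm_num
  rwa [h10, one_mul] at h9

theorem mat_entry (z : AM hF he) (y x : Ix X) :
    (QA.mat (consts hF he) z) y x = (z * be hF he x : AM hF he) y := by
  rw [mul_comp]
  rfl

theorem cas_mid : ∑ a, (frob hF he).C (be hF he a) * (frob hF he).mu *
    (frob hF he).C (bd hF he a) = 0 := by
  refine Matrix.ext fun y x => ?_
  rw [Matrix.sum_apply]
  have h1 := mid_vec hF he (be hF he x) (pr hF he y)
  rw [Matrix.zero_apply, ← h1]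
  refine Finset.sum_congr rfl fun a _ => ?_
  change (QA.mat (consts hF he) (be hF he a) * muB X (nx X) *
    QA.mat (consts hF he) (bd hF he a)) y x =
    (be hF he a * G1.H920.M (frob hF he) (bd hF he a * be hF he x) : AM hF he) y
  rw [Matrix.mul_apply, ← ML_apply]
  conv_rhs => rw [← sum_be hF he (bd hF he a * be hF he x), map_sum, Finset.mul_sum]
  have h2 : (∑ c, be hF he a * ML hF he ((bd hF he a * be hF he x : AM hF he) c • be hF he c) :
      AM hF he) y = ∑ c, (be hF he a * ML hF he
        ((bd hF he a * be hF he x : AM hF he) c • be hF he c) : AM hF he) y :=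
    Finset.sum_apply (M := fun _ : Ix X => RM X) y Finset.univ
      (fun c => (be hF he a * ML hF he
        ((bd hF he a * be hF he x : AM hF he) c • be hF he c) : AM hF he))
  rw [h2]
  refine Finset.sum_congr rfl fun c _ => ?_
  rw [muB, Matrix.mul_diagonal, mat_entry, mat_entry, map_smul, ML_apply, M_be, mul_smul_comm,
    mul_smul_comm]
  change _ = (bd hF he a * be hF he x : AM hF he) c *
    (cb (nx X) (mu X c) * (be hF he a * be hF he c : AM hF he) y)
  ring

/-- **[J1i]** -/
theorem isCas : IsCas (frob hF he) (be hF he) (bd hF he) where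
  move := cas_move hF he
  symm := cas_symm hF he
  skew := cas_skew hF he
  mid := cas_mid hF he

/-- **[J1]** -/
theorem cas_de_two (hF : IsGW X F) (he : Even X.dim) (h1 : IsGenusOneFull F) :
    (frob hF he).der (cas hF he) ((frob hF he).de 2) = 0 := by
  rw [cas_eq]
  exact H861.J1 (frob_getzler hF he h1) (isCas hF he)

end Vale.Agent.P269.G2.H660
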